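import Vale.Agent.Lib.P328.helper12.Families

/-!
P328: rapid mixing of the heat bath on two-by-two blocks of contingency tables, with no
unproved hypothesis, for six families of margins at once.

Let `m ≥ 2`, `n ≥ 2`, and let `r`, `c` be margins of `m × n` tables such that one of the
following holds:

* every row sum is at most two;
* there are two rows `i0`, `i1` such that every other row sum is at most one (the two rows
  and all column sums are arbitrary);
* there is a column `j0` such that every row sum is at most one or at least the sum of the
  column sums other than that of `j0`;
* one of the same three conditions with the roles of rows and columns exchanged.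

Then the heat bath on two-by-two blocks (draw a uniformly random pair of rows and a uniformly
random pair of columns, replace the four entries of the block by a uniformly random admissible
filling) started from any table `x` is within total variation distance `ε` of the uniform
distribution on the tables with margins `r`, `c` after
`4 * m ^ 3 * n ^ 3 * (m * n * log (N + 1) + log (1 / ε))` steps, where `N` is
the sum of all entries.

The proof conditions on all rows outside a small set of rows.  For row sums at most two it
uses the three-row variance inequality (by hand when two of the three row sums are at most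
one, by exact certificates checked by the kernel for the remaining finitely many classes).
For two arbitrary rows it treats the two rows as one site and uses the negative correlation
of the columns of two rows of sum one.  For the dominant column it uses the reservoir
certificate and a product argument.  The column cases follow by transposing the tables.
-/

namespace Vale.Agent.Results.P328.FamiliesUnion

open Finset Vale.Agent.Lib.P328.RP

theorem result (m n : ℕ) (hm : 2 ≤ m) (hn : 2 ≤ n) (r : Fin m → ℕ) (c : Fin n → ℕ)
    (hfam :
      ((∀ i, r i ≤ 2) ∨ (∃ i0 i1 : Fin m, ∀ i, i ≠ i0 → i ≠ i1 → r i ≤ 1) ∨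
        (∃ j0 : Fin n, ∀ i, r i ≤ 1 ∨ ∑ j ∈ univ.erase j0, c j ≤ r i)) ∨
      ((∀ j, c j ≤ 2) ∨ (∃ j0 j1 : Fin n, ∀ j, j ≠ j0 → j ≠ j1 → c j ≤ 1) ∨
        (∃ i0 : Fin m, ∀ j, c j ≤ 1 ∨ ∑ i ∈ univ.erase i0, r i ≤ c j)))
    (x : CT m n r c) (ε : ℝ) (hε : 0 < ε) (hε1 : ε ≤ 1) (t : ℕ)
    (ht : 4 * (m : ℝ) ^ 3 * (n : ℝ) ^ 3 *
      (m * n * Real.log (((∑ i, r i : ℕ) : ℝ) + 1) + Real.log (1 / ε)) ≤ t) :
    (1 / 2) * ∑ y, |(heatBath22 m n r c ^ t) x y - 1 / (Fintype.card (CT m n r c) : ℝ)| ≤ ε :=
  mixing22_families m n hm hn r c hfam x ε hε hε1 t ht

end Vale.Agent.Results.P328.FamiliesUnion
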