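import Vale.Agent.Lib.P328.helper28.FatFinal

/-!
P328: mixing of a block heat bath on contingency tables, with no unproved hypothesis, for all
margins in which the rows of sum larger than one are contained in a set `B` of rows of
arbitrary size.

Let `r`, `c` be margins of `m × n` tables and let `B` be a set of rows, not the set of all
rows, such that every row outside `B` has sum at most one (the row sums inside `B`, the
number of rows in `B` and the column sums `c` are arbitrary).  One step of the block heat
bath `fatBath m n r c B` draws, uniformly at random, either one of the rows `a` outside `B`
or one of the two-element sets `q` of rows outside `B`, and replaces the current table by a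
uniformly random table among those that agree with it in every row outside `B ∪ {a}`,
respectively outside `q`.  Started from any table `x`, this chain is within total variation
distance `ε` of the uniform distribution on the tables with margins `r`, `c` after
`m ^ 2 * (m * n * log (N + 1) + log (1 / ε))` steps, where `N` is the sum of all entries;
the bound does not depend on the number of rows in `B`.

The proof treats the rows in `B` as one site of a local-to-global (Knabe) argument whose
other sites are the single rows outside `B`.  The only local inequality that involves the
block is the one for the block and two rows of sum one; it is equivalent to a negative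
correlation of the columns of two rows of sum one given the rows of the block, i.e. to the
fact that the matrix of the numbers of tables with the row sums of the block and column sums
`c - e_j - e_l` has at most one positive eigenvalue.  This is proved for any number of rows
by moving mass cell by cell with a one-dimensional weighted variance inequality, starting
from a product of log-concave sequences.
-/

namespace Vale.Agent.Results.P328.FatBlockUnitRows

open Finset Vale.Agent.Lib.P328.RP

theorem result (m n : ℕ) (r : Fin m → ℕ) (c : Fin n → ℕ) (B : Finset (Fin m))
    (hB : ∀ i, i ∉ B → r i ≤ 1) (hne : B ≠ univ) (x : CT m n r c)
    (ε : ℝ) (hε : 0 < ε) (hε1 : ε ≤ 1) (t : ℕ)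
    (ht : (m : ℝ) ^ 2 *
      (m * n * Real.log (((∑ i, r i : ℕ) : ℝ) + 1) + Real.log (1 / ε)) ≤ t) :
    (1 / 2) * ∑ y, |(fatBath m n r c B ^ t) x y - 1 / (Fintype.card (CT m n r c) : ℝ)| ≤ ε :=
  mixing_fatBath r c B hB hne x ε hε hε1 t ht

end Vale.Agent.Results.P328.FatBlockUnitRows
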