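import Vale.Agent.Lib.P328.helper12.SmallRows
import Vale.Agent.Lib.P328.helper30.ColReduce
import Vale.Agent.Lib.P328.helper26.SmallAll

/-!
P328: rapid mixing of the heat bath on two-by-two blocks of contingency tables, with no
unproved hypothesis, for all margins in which every row sum is at most two, and for all
margins in which at most one row sum exceeds one.

Let `m ≥ 2`, `n ≥ 2`, and let `r`, `c` be margins of `m × n` tables such that either every row
sum is at most two, or every row sum, except possibly the one of a single row `i0`, is at most
one (the column sums `c` are arbitrary).  Then the heat bath on two-by-two blocks (draw a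
uniformly random pair of rows and a uniformly random pair of columns, replace the four entries
of the block by a uniformly random admissible filling) started from any table `x` is within
total variation distance `ε` of the uniform distribution on the tables with margins `r`, `c`
after `m ^ 2 * n ^ 2 * (m * n * log (N + 1) + log (1 / ε))` steps, where `N` is the sum of all
entries.

The proof conditions on all rows but three; the three-row variance inequality that is needed
is proved by hand when two of the three row sums are at most one, and for the remaining
finitely many classes (row sums in `{1, 2}`, at most six nonzero columns) by exact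
certificates checked by the kernel.
-/

namespace Vale.Agent.Results.P328.RowSumsAtMostTwo

open Finset Vale.Agent.Lib.P328.RP

theorem result (m n : ℕ) (hm : 2 ≤ m) (hn : 2 ≤ n) (r : Fin m → ℕ)
    (hfam : (∀ i, r i ≤ 2) ∨ ∃ i0 : Fin m, ∀ i, i ≠ i0 → r i ≤ 1)
    (c : Fin n → ℕ) (x : CT m n r c) (ε : ℝ) (hε : 0 < ε) (hε1 : ε ≤ 1) (t : ℕ)
    (ht : (m : ℝ) ^ 2 * (n : ℝ) ^ 2 *
      (m * n * Real.log (((∑ i, r i : ℕ) : ℝ) + 1) + Real.log (1 / ε)) ≤ t) :
    (1 / 2) * ∑ y, |(heatBath22 m n r c ^ t) x y - 1 / (Fintype.card (CT m n r c) : ℝ)| ≤ ε :=
  mixing22_small_rows_of hm hn r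
    (fun s h12 h2 c' g h0 =>
      Vale.Agent.Lib.P328.H30.rows_of_canonical s
        (by
          rw [Fin.sum_univ_three]
          rcases h12 0 with a | a <;> rcases h12 1 with b | b <;> rcases h12 2 with d | d <;>
            omega)
        (fun c6 hc g6 h6 => Vale.Agent.Lib.P328.Small.rows_le_two6 s h12 h2 c6 hc g6 h6) c' g h0)
    hfam c x ε hε hε1 t ht

end Vale.Agent.Results.P328.RowSumsAtMostTwo
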