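import Vale.Agent.Lib.P328.helper74.TwoFatSym

/-!
P328: rapid mixing of the heat bath on two-by-two blocks of contingency tables, with no
unproved hypothesis, for all margins in which at most two row sums exceed one, and for all
margins in which at most two column sums exceed one.

Let `m ≥ 2`, `n ≥ 2`, and let `r`, `c` be margins of `m × n` tables such that every row sum,
except possibly those of two rows `i0`, `i1`, is at most one (the row sums `r i0`, `r i1` and
the column sums `c` are arbitrary), or such that every column sum, except possibly those of
two columns `j0`, `j1`, is at most one (the column sums `c j0`, `c j1` and the row sums `r` are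
arbitrary).  Then the heat bath on two-by-two blocks (draw a uniformly random pair of rows and
a uniformly random pair of columns, replace the four entries of the block by a uniformly
random admissible filling) started from any table `x` is within total variation distance `ε`
of the uniform distribution on the tables with margins `r`, `c` after
`4 * m ^ 3 * n ^ 3 * (m * n * log (N + 1) + log (1 / ε))` steps, where `N` is the sum of all
entries.

The proof treats the two arbitrary rows as one block of a local-to-global (Knabe) argument.
The only sharp local inequality that involves the block is the one for the block and two rows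
of sum one, and it is equivalent to a negative correlation: given two arbitrary rows, the
columns of two further unit rows are negatively correlated (the matrix of the numbers of
two-rowed tables with column sums `c - e_j - e_l` has at most one positive eigenvalue).  This
is proved by induction on the columns with a one-dimensional weighted variance inequality.
The case of columns follows by transposing the tables.
-/

namespace Vale.Agent.Results.P328.TwoFatRowsUnitRows

open Finset Vale.Agent.Lib.P328.RP

theorem result (m n : ℕ) (hm : 2 ≤ m) (hn : 2 ≤ n) (r : Fin m → ℕ) (c : Fin n → ℕ)
    (h : (∃ i0 i1 : Fin m, ∀ i, i ≠ i0 → i ≠ i1 → r i ≤ 1) ∨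
      (∃ j0 j1 : Fin n, ∀ j, j ≠ j0 → j ≠ j1 → c j ≤ 1))
    (x : CT m n r c) (ε : ℝ) (hε : 0 < ε) (hε1 : ε ≤ 1) (t : ℕ)
    (ht : 4 * (m : ℝ) ^ 3 * (n : ℝ) ^ 3 *
      (m * n * Real.log (((∑ i, r i : ℕ) : ℝ) + 1) + Real.log (1 / ε)) ≤ t) :
    (1 / 2) * ∑ y, |(heatBath22 m n r c ^ t) x y - 1 / (Fintype.card (CT m n r c) : ℝ)| ≤ ε :=
  mixing22_two_fat_unit_sym hm hn r c h x ε hε hε1 t ht

end Vale.Agent.Results.P328.TwoFatRowsUnitRows
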